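import Vale.Agent.P022K.Top.Full
import Vale.Agent.P022K.Top.Serre
import Vale.Agent.P022K.PM.Pmx

/-!
P022, Question 1. Let `E` be a finite extension of `ℚ₂` and `r : Gal(ℚ̄/ℚ) → GL₂(E)` continuous,
odd, absolutely irreducible and ramified at finitely many primes. Then `r` occurs in the 2-adic
Hecke algebra of an odd level `N` whose prime divisors are primes at which `r` ramifies.
-/

open Vale.Agent.P022

namespace Vale.Agent.Results.P022.AFull

theorem result (E : Type) [NontriviallyNormedField E] [NormedAlgebra ℚ_[2] E]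
    [FiniteDimensional ℚ_[2] E]
    (r : (AlgebraicClosure ℚ ≃ₐ[ℚ] AlgebraicClosure ℚ) →* GL (Fin 2) E)
    (hc : Continuous r) (ho : St.OddRep r) (hi : St.AbsIrr r)
    (hS : {p : ℕ | p.Prime ∧ ¬ St.UnrAt r p}.Finite) : St.Q1Concl r :=
  Vale.Agent.P022K.Top.q1_of (Vale.Agent.P022K.Top.serre_pmx Vale.Agent.P022K.PM.pmx)
    E r hc ho hi hS

end Vale.Agent.Results.P022.AFull
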